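import Crest.Agent.N250.Mt.Geo
import Crest.Agent.N250.B1.Sm4
import Crest.Agent.N250.B1.DrS
import Crest.Agent.N250.Ec.Dat
import Crest.Agent.N250.HJ.Der

/-! # Row 250 (helper65): the end side of the matching -/

set_option autoImplicit false

open Set Filter Topology Complex

noncomputable section

namespace Crest.Agent.N250.Me

open B1 Po Mt

variable {ℓ : Ell} {R K g g' ε e δ : ℝ} {z : Par ℓ} {J : Jt ℓ}

/-- the radius of the end -/
def rU (R : ℝ) (z : Par ℓ) (J : Jt ℓ) (q : ℝ × ℝ) : ℂ := (2 * B1.vS R z J q) ^ (1 / 2 : ℂ)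

theorem rU_sq (q : ℝ × ℝ) : B1.vS R z J q = rU R z J q ^ 2 / 2 := by rw [rU, HJ.sqrt_sq]; ring

theorem rU_per (x θ : ℝ) : rU R z J (x, θ + 2 * Real.pi) = rU R z J (x, θ) := by
  rw [rU, rU, vS_per]

theorem cd_half {v : ℂ} (h : v ∈ slitPlane) : ContDiffAt ℝ 2 (fun w : ℂ => w ^ (1 / 2 : ℂ)) v := by
  have h1 : ContDiffAt ℂ 2 (fun w : ℂ => w ^ (1 / 2 : ℂ)) v :=
    (DifferentiableOn.contDiffOn (fun w hw => (differentiableAt_id.cpow_const hw).differentiableWithinAt)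
      isOpen_slitPlane).contDiffAt (isOpen_slitPlane.mem_nhds h)
  exact h1.restrict_scalars ℝ

/-- `C²` up to the boundary -/
theorem rU_c2 (hj : IsJet (dgam R z.1) J) (h2 : ∀ s θ, 2 * vj R z.1 z.2.1 J s θ 0 ∈ slitPlane) :
    ContDiffOn ℝ 2 (rU R z J) (Icc R (R + 1) ×ˢ univ) := fun y hy =>
  ContDiffAt.comp_contDiffWithinAt (g := fun w : ℂ => w ^ (1 / 2 : ℂ))
    (f := fun q => 2 * B1.vS R z J q) y (cd_half (h2 _ _))
    (contDiffWithinAt_const.mul (vS_c2 hj y hy))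

theorem xW_le {X x : ℝ} {a : ℂ} (p : Rg.Pt K X a x) (hg : Ex g g') : x * W g g' a x ≤ 6 := by
  obtain ⟨g1, g2, g3⟩ := Rg.Ex.bounds hg
  have hx := p.x_pos
  have h1 : x ^ (-g) ≤ x ^ (-1 : ℝ) :=
    Real.rpow_le_rpow_of_exponent_le (by linarith [p.x2]) (by linarith)
  rw [Real.rpow_neg_one] at h1
  have h2 : ‖et a x‖ ^ g' ≤ (9 / 4 : ℝ) ^ (2 : ℝ) :=
    (Real.rpow_le_rpow (norm_nonneg _) p.norm_le (by linarith)).trans
      (Real.rpow_le_rpow_of_exponent_le (by norm_num) g3)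
  rw [Real.rpow_two] at h2
  have h3 := mul_le_mul h1 h2 (Real.rpow_nonneg (norm_nonneg _) _) (by positivity)
  calc x * W g g' a x ≤ x * (x⁻¹ * (9 / 4) ^ 2) := mul_le_mul_of_nonneg_left h3 hx.le
    _ ≤ 6 := by rw [← mul_assoc, mul_inv_cancel₀ hx.ne']; norm_num

/-- all components of a jet in the ball are small -/
theorem val_le6 (c : Sz R K g g' e) (h : Sl R K g g' ε e z J) (s : II) (θ : ℝ) (k : Fin 6) :
    ‖val (J k) s θ‖ ≤ e * 6 := by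
  obtain ⟨g1, g2, g3⟩ := Rg.Ex.bounds c.ex
  have p := h.pt c s
  have hx := p.x2
  have hn := p.norm_pos
  have hW := p.W_pos g g'
  have h1 := xW_le p c.ex
  have h2 : W g g' z.2.1 (xr R z.1.re s) ≤ 6 := by nlinarith
  have h3 : (xr R z.1.re s)⁻¹ ≤ 1 := inv_le_one_of_one_le₀ (by linarith)
  have h4 := p.W_div_le g1 g2 g3
  have h5 : W g g' z.2.1 (xr R z.1.re s) / ‖et z.2.1 (xr R z.1.re s)‖ ≤ 6 := by
    rw [div_le_iff₀ hn]
    nlinarith [p.W_le_sq g1 g2 g3, p.norm_le]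
  fin_cases k
  · exact Rg.val_le h.inb.b0 s θ p.rho_pos hW (Or.inl (by linarith [p.rho_le_one])) h2
  · exact Rg.val_le h.inb.b1 s θ (by positivity) (by positivity) (Or.inl (by linarith))
      (by linarith)
  · exact Rg.val_le h.inb.b2 s θ one_pos (by positivity) (Or.inl (by norm_num)) h5
  · exact Rg.val_le h.inb.b3 s θ one_pos hW (Or.inl (by norm_num)) h2
  · exact Rg.val_le h.inb.b4 s θ one_pos (by positivity) (Or.inl (by norm_num)) h1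
  · exact Rg.val_le h.inb.b5 s θ one_pos hW (Or.inl (by norm_num)) h2

/-- the jet of `v - 1` on the strip -/
theorem vk_le (c : Sz R K g g' e) (h : Sl R K g g' ε e z J) (he : e ≤ δ)
    (ha : ‖z.2.1‖ * (R + 1) ^ 2 ≤ δ) {q : ℝ × ℝ} (hq : q.1 ∈ Icc R (R + 1)) :
    ‖vk R z.1 z.2.1 J (tS R) 0 q - 1‖ ≤ 7 * δ ∧
      ∀ k : Fin 6, k ≠ 0 → ‖vk R z.1 z.2.1 J (tS R) k q‖ ≤ 7 * δ := by
  have v := val_le6 c h (tS R q.1) q.2
  have hg := (rd_strip R z.1).gam q.1 hq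
  have hR := c.hR
  have hx1 := hq.1
  have hx2 := hq.2
  have ha0 := norm_nonneg z.2.1
  have hδ : 0 ≤ δ := le_trans (by positivity) ha
  have a1 : ‖z.2.1 * ((q.1 : ℂ) ^ 2 - 2) / 2‖ ≤ δ := by
    rw [show ((q.1 : ℂ) ^ 2 - 2) = ((q.1 ^ 2 - 2 : ℝ) : ℂ) by push_cast; ring, norm_div, norm_mul,
      Complex.norm_real, Complex.norm_two, Real.norm_of_nonneg (by nlinarith)]
    have : ‖z.2.1‖ * (q.1 ^ 2 - 2) ≤ ‖z.2.1‖ * (R + 1) ^ 2 :=
      mul_le_mul_of_nonneg_left (by nlinarith) ha0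
    linarith
  have a2 : ‖z.2.1 * (q.1 : ℂ)‖ ≤ δ := by
    rw [norm_mul, Complex.norm_real, Real.norm_of_nonneg (by linarith)]
    exact le_trans (mul_le_mul_of_nonneg_left (by nlinarith) ha0) ha
  have a3 : ‖z.2.1‖ ≤ δ := le_trans (le_mul_of_one_le_right ha0 (by nlinarith)) ha
  refine ⟨?_, fun k hk => ?_⟩
  · have e : vk R z.1 z.2.1 J (tS R) 0 q - 1 =
        z.2.1 * ((q.1 : ℂ) ^ 2 - 2) / 2 + val (J 0) (tS R q.1) q.2 := by
      simp only [vk, vj, hg, et, Matrix.cons_val_zero]; ring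
    rw [e]
    linarith [norm_add_le (z.2.1 * ((q.1 : ℂ) ^ 2 - 2) / 2) (val (J 0) (tS R q.1) q.2), v 0]
  · fin_cases k
    · exact absurd rfl hk
    · have e : vk R z.1 z.2.1 J (tS R) 1 q = z.2.1 * (q.1 : ℂ) + val (J 1) (tS R q.1) q.2 := by
        simp [vk, vj, hg]
      refine (congrArg norm e).trans_le ((norm_add_le _ _).trans ?_)
      linarith [v 1]
    · have e : vk R z.1 z.2.1 J (tS R) 2 q = z.2.1 + val (J 2) (tS R q.1) q.2 := by simp [vk, vj]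
      refine (congrArg norm e).trans_le ((norm_add_le _ _).trans ?_)
      linarith [v 2]
    · exact (v 3).trans (by linarith)
    · exact (v 4).trans (by linarith)
    · exact (v 5).trans (by linarith)

theorem sqrt_near {v : ℂ} : ‖(2 * v) ^ (1 / 2 : ℂ) - (√2 : ℝ)‖ ≤ 2 * ‖v - 1‖ := by
  set s := (2 * v) ^ (1 / 2 : ℂ)
  have h1 : s ^ 2 = 2 * v := HJ.sqrt_sq _
  have h2 : 0 ≤ s.re := HJ.sqrt_re_nonneg _
  have h3 : 1 ≤ ‖s + (√2 : ℝ)‖ := by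
    refine le_trans ?_ (re_le_norm _)
    rw [add_re, ofReal_re]; linarith [sq2.1]
  have h4 : (s - (√2 : ℝ)) * (s + (√2 : ℝ)) = 2 * (v - 1) := by linear_combination h1 - s2
  have h5 := congrArg norm h4
  rw [norm_mul, norm_mul, Complex.norm_two] at h5
  nlinarith [norm_nonneg (s - (√2 : ℝ))]

/-- **the end is close to the cylinder and solves the equation** on the open strip -/
theorem rU_nr (c : Sz R K g g' e) (h : Sl R K g g' ε e z J) (he : e ≤ δ) (hδ : δ ≤ 1 / 140)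
    (ha : ‖z.2.1‖ * (R + 1) ^ 2 ≤ δ) (h2 : ∀ s θ, 2 * vj R z.1 z.2.1 J s θ 0 ∈ slitPlane)
    {q : ℝ × ℝ} (h0 : R < q.1) (h1 : q.1 < R + 1) :
    ContDiffAt ℝ 2 (rU R z J) q ∧ Nr (√2 : ℝ) (14 * δ) 1 (rU R z J) q ∧
      PRj q.1 (j1 (rU R z J) q) (j2 (rU R z J) q) = 0 := by
  have n : Icc R (R + 1) ∈ 𝓝 q.1 := Icc_mem_nhds h0 h1
  have cd : ContDiffAt ℝ 2 (rU R z J) q :=
    (rU_c2 h.sol.jet h2).contDiffAt (prod_mem_nhds n univ_mem)
  have df := cd.differentiableAt (by simp)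
  obtain ⟨b0, b⟩ := vk_le c h he ha (mem_of_mem_nhds n)
  have r := rd_strip R z.1
  have e1 : d1 (B1.vS R z J) q = _ := h.sol.jet.d1_0 r n (ContinuousLinearMap.id ℝ ℂ)
  have e3 : d2 (B1.vS R z J) q = _ := h.sol.jet.d2_0 r n (ContinuousLinearMap.id ℝ ℂ)
  have e2 : d1 (d1 (B1.vS R z J)) q = _ := h.sol.jet.d11 r n (ContinuousLinearMap.id ℝ ℂ)
  have e4 : d1 (d2 (B1.vS R z J)) q = _ := h.sol.jet.d12 r n (ContinuousLinearMap.id ℝ ℂ)
  have e5 : d2 (d2 (B1.vS R z J)) q = _ := h.sol.jet.d22 r n (ContinuousLinearMap.id ℝ ℂ)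
  have hE : Cj.ELC (B1.vS R z J) q = 0 := by
    rw [Cj.ELC, e1, e3, e2, e4, e5, ← r.gam q.1 (mem_of_mem_nhds n)]; exact h.sol.eq _ _
  have hv : ∀ᶠ y in 𝓝 q, B1.vS R z J y = rU R z J y ^ 2 / 2 := .of_forall rU_sq
  have hδ0 : 0 ≤ δ := le_trans (by positivity) ha
  have n0 : ‖rU R z J q - (√2 : ℝ)‖ ≤ 14 * δ :=
    sqrt_near.trans (by change 2 * ‖vk R z.1 z.2.1 J (tS R) 0 q - 1‖ ≤ _; linarith)
  have n1 : 1 ≤ ‖rU R z J q‖ := by
    have := abs_le.1 ((abs_norm_sub_norm_le _ _).trans n0)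
    rw [Complex.norm_real, Real.norm_of_nonneg (Real.sqrt_nonneg _)] at this
    linarith [sq2.1, this.1]
  have k1 : ∀ {u v : ℂ}, v = rU R z J q * u → ‖v‖ ≤ 7 * δ → ‖u‖ ≤ 7 * δ := fun {u v} e hv => by
    rw [e, norm_mul] at hv; nlinarith [norm_nonneg u]
  have f1 : ‖d1 (rU R z J) q‖ ≤ 7 * δ := k1 (e1.symm.trans (Cj.fd_vC df hv _)) (b 1 (by decide))
  have f2 : ‖d2 (rU R z J) q‖ ≤ 7 * δ := k1 (e3.symm.trans (Cj.fd_vC df hv _)) (b 3 (by decide))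
  have k2 : ∀ {u v s t : ℂ}, v = rU R z J q * u + s * t → ‖v‖ ≤ 7 * δ → ‖s‖ ≤ 7 * δ →
      ‖t‖ ≤ 7 * δ → ‖u‖ ≤ 1 := fun {u v s t} e hv hs ht => by
    have a1 : ‖rU R z J q * u‖ ≤ ‖v‖ + ‖s * t‖ := by
      rw [show rU R z J q * u = v - s * t by rw [e]; ring]; exact norm_sub_le _ _
    rw [norm_mul, norm_mul] at a1
    have a2 : ‖s‖ * ‖t‖ ≤ 7 * δ * (7 * δ) := mul_le_mul hs ht (norm_nonneg _) (by positivity)
    nlinarith [norm_nonneg u]
  have nr : Nr (√2 : ℝ) (14 * δ) 1 (rU R z J) q :=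
    ⟨n0, by linarith, by linarith,
      k2 (e2.symm.trans (Cj.fd2_vC cd hv _ _)) (b 2 (by decide)) f1 f1,
      k2 (e4.symm.trans (Cj.fd2_vC cd hv _ _)) (b 4 (by decide)) f1 f2,
      k2 (e5.symm.trans (Cj.fd2_vC cd hv _ _)) (b 5 (by decide)) f2 f2⟩
  have hQ := nr.Qr_ge (by linarith)
  refine ⟨cd, nr, PRj_zero cd (norm_pos_iff.1 (by linarith)) (fun h0 => ?_) hv hE⟩
  rw [h0, zero_mul, norm_zero] at hQ
  linarith

/-- the comparison function `r₀ + χ (r_U - r₀)` -/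
def r1 (r₀ χ s : ℝ × ℝ → ℂ) (q : ℝ × ℝ) : ℂ := r₀ q + χ q * (s q - r₀ q)

theorem cn_r1 {r₀ χ s : ℝ × ℝ → ℂ} {b : ℝ} (hb : b < R + 1)
    (hs : ContDiffOn ℝ 2 s (Icc R (R + 1) ×ˢ univ))
    (h : ∀ q : ℝ × ℝ, R ≤ q.1 → ContDiffAt ℝ 2 r₀ q ∧ ContDiffAt ℝ 2 χ q)
    (h0 : ∀ q : ℝ × ℝ, b < q.1 → χ q = 0)
    (hp : ∀ x θ, R < x → r₀ (x, θ + 2 * Real.pi) = r₀ (x, θ) ∧ χ (x, θ + 2 * Real.pi) = χ (x, θ) ∧
      s (x, θ + 2 * Real.pi) = s (x, θ)) : Cn 2 R (r1 r₀ χ s) := by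
  have key : ContDiffOn ℝ 2 (r1 r₀ χ s) {q | R ≤ q.1} := fun q hq => by
    rcases lt_or_ge b q.1 with hx | hx
    · refine ((h q hq).1.congr_of_eventuallyEq ?_).contDiffWithinAt
      filter_upwards [(isOpen_half b).mem_nhds hx] with y hy
      rw [r1, h0 y hy, zero_mul, add_zero]
    · have h1 : ContDiffWithinAt ℝ 2 s {q : ℝ × ℝ | R ≤ q.1} q := by
        refine (hs q ⟨⟨hq, by linarith⟩, trivial⟩).mono_of_mem_nhdsWithin ?_
        filter_upwards [self_mem_nhdsWithin, mem_nhdsWithin_of_mem_nhds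
          ((isOpen_lt continuous_fst continuous_const).mem_nhds
            (show q.1 < R + 1 by linarith))] with y hy hy'
        exact ⟨⟨hy, le_of_lt hy'⟩, trivial⟩
      exact (h q hq).1.contDiffWithinAt.add ((h q hq).2.contDiffWithinAt.mul
        (h1.sub (h q hq).1.contDiffWithinAt))
  exact ⟨key.of_le (by norm_num), key.mono fun q hq => le_of_lt (α := ℝ) hq, fun x θ hx => by
    simp only [r1, (hp x θ hx).1, (hp x θ hx).2.1, (hp x θ hx).2.2]⟩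

theorem r1_eq {r₀ χ s : ℝ × ℝ → ℂ} {q : ℝ × ℝ} (h : χ q = 1) : r1 r₀ χ s q = s q := by
  rw [r1, h]; ring

theorem j_congr {f f' : ℝ × ℝ → ℂ} {q : ℝ × ℝ} (h : f =ᶠ[𝓝 q] f') :
    j1 f q = j1 f' q ∧ j2 f q = j2 f' q := by
  have a1 : d1 f =ᶠ[𝓝 q] d1 f' := h.eventually_nhds.mono fun y hy => by
    rw [d1, d1, EventuallyEq.fderiv_eq hy]
  have a2 : d2 f =ᶠ[𝓝 q] d2 f' := h.eventually_nhds.mono fun y hy => by
    rw [d2, d2, EventuallyEq.fderiv_eq hy]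
  refine ⟨by rw [j1, j1, h.self_of_nhds, a1.self_of_nhds, a2.self_of_nhds], ?_⟩
  simp only [j2]
  rw [d1, a1.fderiv_eq, d1, a2.fderiv_eq, d2, a2.fderiv_eq]
  rfl

theorem nr_congr {f f' : ℝ × ℝ → ℂ} {q : ℝ × ℝ} {c : ℂ} {t C : ℝ} (h : f =ᶠ[𝓝 q] f')
    (n : Nr c t C f' q) : Nr c t C f q := by
  obtain ⟨a, b⟩ := j_congr h
  simp only [j1, j2, Prod.mk.injEq] at a b
  simpa only [Nr, a.1, a.2.1, a.2.2, b.1, b.2.1, b.2.2] using n

theorem nr_mono {f : ℝ × ℝ → ℂ} {q : ℝ × ℝ} {c : ℂ} {t C t' C' : ℝ} (n : Nr c t C f q)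
    (ht : t ≤ t') (hC : C ≤ C') : Nr c t' C' f q :=
  ⟨n.1.trans ht, n.2.1.trans ht, n.2.2.1.trans ht, n.2.2.2.1.trans hC, n.2.2.2.2.1.trans hC,
    n.2.2.2.2.2.trans hC⟩

theorem fc_val (u : Wi (om ℓ)) (s : II) (m : ℤ) : Ra.fc (val u s) m = Wi.co u m s := by
  have h := Wi.integral_syn u m
  have h2 := (ContinuousMap.evalCLM ℂ s).intervalIntegral_comp_comm
    (((Wi.continuous_ex (-m)).fun_smul (Wi.continuous_syn u)).intervalIntegrable
      (μ := MeasureTheory.volume) 0 (2 * Real.pi))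
  rw [h] at h2
  have h3 : ((2 * Real.pi : ℝ) : ℂ) ≠ 0 := by exact_mod_cast Real.two_pi_pos.ne'
  have h4 : ∫ θ in (0 : ℝ)..2 * Real.pi, Wi.ex (-m) θ * val u s θ =
      ((2 * Real.pi : ℝ) : ℂ) * Wi.co u m s := by simpa [val] using h2
  rw [Ra.fc, h4, inv_mul_cancel_left₀ h3]

/-- **the trace**: the datum and the three slow modes determine `v(R, ·)` -/
theorem trace (hbc : BC z.2.2 J) {v v₀ : ℝ → ℂ} (c0 : Continuous v₀)
    (hb : ∀ θ, Wi.syn z.2.2.1 θ = v θ - 1)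
    (hm : ∀ i : Fin 3, Ra.fc (fun θ => v θ - v₀ θ) ((i : ℤ) - 1) =
      Ra.fc (fun θ => B1.vS R z J (R, θ) - v₀ θ) ((i : ℤ) - 1)) (θ : ℝ) :
    v θ = B1.vS R z J (R, θ) := by
  have ev : v = fun θ => Wi.syn z.2.2.1 θ + 1 := funext fun θ => by rw [hb]; ring
  have t0 : tS R R = i0 := Subtype.ext (by rw [tS_coe ⟨le_rfl, by linarith⟩]; simp [i0])
  have eU : ∀ θ, B1.vS R z J (R, θ) = et z.2.1 R + val (J 0) i0 θ := fun θ => by
    rw [vS_eq z J (y := (R, θ)) ⟨le_rfl, by linarith⟩, t0]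
  have cv : Continuous v := by rw [ev]; exact (Wi.continuous_syn _).add continuous_const
  have cw : Continuous (val (J 0) i0) :=
    (ContinuousMap.evalCLM ℂ i0).continuous.comp (Wi.continuous_syn (J 0))
  have cU : Continuous fun θ => B1.vS R z J (R, θ) := by
    simp only [eU]; exact continuous_const.add cw
  have z0 : ∀ m : ℤ, Ra.fc (fun θ => v θ - B1.vS R z J (R, θ)) m = 0 := fun m => by
    by_cases hm2 : 2 ≤ |m|
    · have e : (fun θ => v θ - B1.vS R z J (R, θ)) = fun θ =>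
          Wi.syn (z.2.2.1 + Wi.single _ 0 (1 - et z.2.1 R)) θ - val (J 0) i0 θ := funext fun θ => by
        rw [eU, Wi.syn_add, Wi.syn_single, hb]; simp; ring
      rw [e, Ra.fc_sub (Wi.continuous_syn _) cw, Ec.fc_syn, fc_val, hbc.inner m hm2, Wi.co_add,
        Wi.co_single_ne (by rintro rfl; simp at hm2)]
      simp
    · have e : (fun θ => v θ - B1.vS R z J (R, θ)) =
          fun θ => (v θ - v₀ θ) - (B1.vS R z J (R, θ) - v₀ θ) := funext fun θ => by ring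
      rw [e, Ra.fc_sub (cv.fun_sub c0) (cU.fun_sub c0), sub_eq_zero]
      have h3 : -2 < m ∧ m < 2 := abs_lt.1 (not_le.1 hm2)
      have := hm ⟨(m + 1).toNat, by omega⟩
      rwa [show (((⟨(m + 1).toNat, by omega⟩ : Fin 3) : ℕ) : ℤ) - 1 = m by simp only; omega] at this
  have hp : Function.Periodic (fun θ => v θ - B1.vS R z J (R, θ)) (2 * Real.pi) := fun θ => by
    simp only [ev, Wi.syn_periodic, vS_per]
  have hs := Ra.fc_hasSum hp (cv.fun_sub cU) (by rw [funext z0]; exact summable_zero) θ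
  simp only [z0, zero_mul] at hs
  exact sub_eq_zero.1 (hs.unique hasSum_zero)

end Crest.Agent.N250.Me
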